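import Mathlib

/-! P087, Fock/Basic: full Fock space on lists, left and right semicircular letters. -/

open scoped InnerProductSpace ComplexConjugate

namespace P087.Fock

/-- full Fock space -/
noncomputable abbrev HH (I : Type) := lp (fun _ : List I => ℂ) 2

variable {I : Type} [DecidableEq I]

/-- basis vectors -/
noncomputable def ev (w : List I) : HH I := lp.single 2 w (1 : ℂ)

/-- sum over the splittings `w = w1 ++ i :: w2` of `F w1 w2` -/
def spl {R : Type*} [AddCommMonoid R] (i : I) : (List I → List I → R) → List I → R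
  | _, [] => 0
  | F, j :: w => (if j = i then F [] w else 0) + spl i (fun a b => F (j :: a) b) w

theorem inner_ev (w : List I) (f : HH I) : ⟪ev w, f⟫_ℂ = f w := by
  unfold ev
  rw [lp.inner_single_left]
  simp

theorem ev_apply (w v : List I) : (ev w : HH I) v = if v = w then 1 else 0 := by
  unfold ev
  rw [lp.single_apply, Pi.single_apply]

theorem inner_ev_ev (w v : List I) : ⟪(ev w : HH I), ev v⟫_ℂ = if w = v then 1 else 0 := by
  rw [inner_ev, ev_apply]

theorem norm_ev (w : List I) : ‖(ev w : HH I)‖ = 1 := by
  unfold ev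
  rw [lp.norm_single (by norm_num)]
  simp

theorem ext_inner (f g : HH I) (h : ∀ w, ⟪ev w, f⟫_ℂ = ⟪ev w, g⟫_ℂ) : f = g := by
  apply lp.ext
  funext w
  have := h w
  rwa [inner_ev, inner_ev] at this

/-- the basis vectors span a dense subspace -/
theorem dense_span : (Submodule.span ℂ (Set.range (ev : List I → HH I))).topologicalClosure = ⊤ := by
  rw [Submodule.topologicalClosure_eq_top_iff, Submodule.eq_bot_iff]
  intro f hf
  apply ext_inner
  intro w
  rw [inner_zero_right]
  rw [Submodule.mem_orthogonal] at hf
  exact hf _ (Submodule.subset_span ⟨w, rfl⟩)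

/-- two bounded operators agreeing on the basis vectors agree -/
theorem op_ext (a b : HH I →L[ℂ] HH I) (h : ∀ w, a (ev w) = b (ev w)) : a = b := by
  apply ContinuousLinearMap.ext_on (s := Set.range (ev : List I → HH I))
  · have := dense_span (I := I)
    rw [← Submodule.dense_iff_topologicalClosure_eq_top] at this
    exact this
  · rintro _ ⟨w, rfl⟩
    exact h w

/-- isometry attached to an injective map of words -/
private theorem orth (φ : List I → List I) (hφ : Function.Injective φ) :
    OrthogonalFamily ℂ (fun _ : List I => ℂ)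
      (fun w => ((LinearIsometry.toSpanSingleton ℂ (HH I) (norm_ev (φ w)) : ℂ →ₗᵢ[ℂ] HH I))) := by
  intro w v hwv x y
  simp only [LinearIsometry.toSpanSingleton_apply, inner_smul_left, inner_smul_right, inner_ev_ev]
  rw [if_neg (fun h => hwv (hφ h))]
  simp

/-- operator `e_w ↦ e_(φ w)` -/
noncomputable def opφ (φ : List I → List I) (hφ : Function.Injective φ) : HH I →L[ℂ] HH I :=
  (orth φ hφ).linearIsometry.toContinuousLinearMap

theorem opφ_ev (φ : List I → List I) (hφ : Function.Injective φ) (w : List I) :
    opφ φ hφ (ev w) = ev (φ w) := by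
  unfold opφ
  rw [LinearIsometry.coe_toContinuousLinearMap]
  conv_lhs => rw [ev]
  rw [OrthogonalFamily.linearIsometry_apply_single]
  simp

theorem opφ_adj_apply (φ : List I → List I) (hφ : Function.Injective φ) (f : HH I) (w : List I) :
    (ContinuousLinearMap.adjoint (opφ φ hφ) f) w = f (φ w) := by
  rw [← inner_ev, ContinuousLinearMap.adjoint_inner_right, opφ_ev, inner_ev]

theorem norm_opφ_le (φ : List I → List I) (hφ : Function.Injective φ) : ‖opφ φ hφ‖ ≤ 1 :=
  LinearIsometry.norm_toContinuousLinearMap_le _

/-- left creation -/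
noncomputable def lc (i : I) : HH I →L[ℂ] HH I := opφ (fun w => i :: w) (List.cons_injective)

theorem concat_inj (i : I) : Function.Injective (fun w : List I => w ++ [i]) := by
  intro a b h
  exact List.append_left_injective [i] h

/-- right creation -/
noncomputable def rc (i : I) : HH I →L[ℂ] HH I := opφ (fun w => w ++ [i]) (concat_inj i)

/-- left semicircular letter -/
noncomputable def y (i : I) : HH I →L[ℂ] HH I := lc i + ContinuousLinearMap.adjoint (lc i)

/-- right semicircular letter -/
noncomputable def d (i : I) : HH I →L[ℂ] HH I := rc i + ContinuousLinearMap.adjoint (rc i)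

/-- product of left letters -/
noncomputable def wd : List I → (HH I →L[ℂ] HH I)
  | [] => 1
  | i :: Q => y i * wd Q

theorem lc_adj_nil (i : I) : ContinuousLinearMap.adjoint (lc i) (ev ([] : List I)) = 0 := by
  apply lp.ext
  funext w
  rw [lc, opφ_adj_apply, ev_apply]
  simp

theorem lc_adj_cons (i j : I) (w : List I) :
    ContinuousLinearMap.adjoint (lc i) (ev (j :: w)) = if i = j then ev w else 0 := by
  apply lp.ext
  funext v
  rw [lc, opφ_adj_apply, ev_apply]
  by_cases h : i = j
  · subst h
    simp [ev_apply]
  · simp [h]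

theorem rc_adj_nil (i : I) : ContinuousLinearMap.adjoint (rc i) (ev ([] : List I)) = 0 := by
  apply lp.ext
  funext w
  rw [rc, opφ_adj_apply, ev_apply]
  simp

theorem rc_adj_concat (i j : I) (w : List I) :
    ContinuousLinearMap.adjoint (rc i) (ev (w ++ [j])) = if i = j then ev w else 0 := by
  apply lp.ext
  funext v
  rw [rc, opφ_adj_apply, ev_apply]
  by_cases h : i = j
  · subst h
    simp [ev_apply]
  · simp [h]

theorem y_nil (i : I) : y i (ev ([] : List I)) = ev [i] := by
  simp [y, lc_adj_nil]
  rw [lc, opφ_ev]

theorem y_cons (i j : I) (w : List I) :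
    y i (ev (j :: w)) = ev (i :: j :: w) + if i = j then ev w else 0 := by
  rw [y, ContinuousLinearMap.add_apply, lc_adj_cons, lc, opφ_ev]

theorem d_nil (i : I) : d i (ev ([] : List I)) = ev [i] := by
  simp [d, rc_adj_nil]
  rw [rc, opφ_ev]
  rfl

theorem d_concat (i j : I) (w : List I) :
    d i (ev (w ++ [j])) = ev (w ++ [j] ++ [i]) + if i = j then ev w else 0 := by
  rw [d, ContinuousLinearMap.add_apply, rc_adj_concat, rc, opφ_ev]

theorem y_adj (i : I) : ContinuousLinearMap.adjoint (y i) = y i := by
  rw [y, map_add, ContinuousLinearMap.adjoint_adjoint, add_comm]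

theorem d_adj (i : I) : ContinuousLinearMap.adjoint (d i) = d i := by
  rw [d, map_add, ContinuousLinearMap.adjoint_adjoint, add_comm]

theorem norm_y_le (i : I) : ‖y i‖ ≤ 2 := by
  unfold y
  refine (norm_add_le _ _).trans ?_
  rw [LinearIsometryEquiv.norm_map]
  have : ‖lc i‖ ≤ 1 := norm_opφ_le _ _
  linarith

theorem y_comm_d (i j : I) : y i * d j = d j * y i := by
  apply op_ext
  intro w
  simp only [mul_apply_eq_comp]
  rcases w.eq_nil_or_concat' with rfl | ⟨w', b, rfl⟩
  · rw [d_nil, y_nil, y_cons]
    have : d j (ev [i]) = ev [i, j] + if j = i then ev [] else 0 := by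
      simpa using d_concat j i []
    rw [this]
    simp [eq_comm]
  · rcases w' with _ | ⟨a, w''⟩
    · have h1 : d j (ev ([] ++ [b])) = ev [b, j] + if j = b then ev [] else 0 := by
        simpa using d_concat j b []
      rw [h1, map_add]
      have h2 : y i (ev ([] ++ [b])) = ev ([i] ++ [b]) + if i = b then ev [] else 0 := by
        simpa using y_cons i b []
      rw [h2, map_add, d_concat, y_cons]
      by_cases h3 : j = b <;> by_cases h4 : i = b <;> simp [h3, h4, y_nil, d_nil] <;> abel
    · rw [d_concat, map_add]
      have h2 : y i (ev (a :: w'' ++ [b])) =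
          ev ((i :: a :: w'') ++ [b]) + if i = a then ev (w'' ++ [b]) else 0 := by
        simpa using y_cons i a (w'' ++ [b])
      rw [h2, map_add, d_concat]
      have h3 : y i (ev (a :: w'' ++ [b] ++ [j])) =
          ev (i :: a :: w'' ++ [b] ++ [j]) + if i = a then ev (w'' ++ [b] ++ [j]) else 0 := by
        simpa using y_cons i a (w'' ++ [b] ++ [j])
      rw [h3]
      by_cases h4 : j = b <;> by_cases h5 : i = a <;>
        simp [h4, h5, y_cons, d_concat] <;> abel

end P087.Fock
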