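import Vale.Agent.Lib.P087.Fock.Basic

/-! P087, Fock/Coef: coefficients of words of left letters (natural numbers). -/

open scoped InnerProductSpace ComplexConjugate

namespace P087.Fock

variable {I : Type} [DecidableEq I]

/-- coefficient of `e_u` in `Q Ω` -/
def nc : List I → List I → ℕ
  | [], u => if u = [] then 1 else 0
  | i :: Q, [] => nc Q [i]
  | i :: Q, j :: u => (if i = j then nc Q u else 0) + nc Q (i :: j :: u)

/-- vacuum moment of a word -/
def tau (Q : List I) : ℕ := nc Q []

theorem inner_wd (Q u : List I) : ⟪ev u, wd Q (ev [])⟫_ℂ = (nc Q u : ℂ) := by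
  induction Q generalizing u with
  | nil =>
    have h : wd ([] : List I) (ev []) = ev [] := rfl
    rw [h, inner_ev_ev, nc]
    push_cast
    rfl
  | cons i Q ih =>
    have h : wd (i :: Q) (ev []) = y i (wd Q (ev [])) := rfl
    have h2 : ⟪ev u, y i (wd Q (ev []))⟫_ℂ = ⟪y i (ev u), wd Q (ev [])⟫_ℂ := by
      conv_rhs => rw [← y_adj i]
      rw [ContinuousLinearMap.adjoint_inner_left]
    rw [h, h2]
    cases u with
    | nil => rw [y_nil, ih, nc]
    | cons j u =>
      rw [y_cons, inner_add_left, ih, nc]
      by_cases hij : i = j
      · rw [if_pos hij, if_pos hij, ih]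
        push_cast
        ring
      · rw [if_neg hij, if_neg hij, inner_zero_left]
        push_cast
        ring

theorem nc_zero (Q u : List I) (h : Q.length < u.length) : nc Q u = 0 := by
  induction Q generalizing u with
  | nil =>
    have hu : u ≠ [] := by
      rintro rfl
      simp at h
    rw [nc, if_neg hu]
  | cons i Q ih =>
    cases u with
    | nil => simp at h
    | cons j u =>
      simp only [List.length_cons] at h
      rw [nc, ih u (by omega), ih (i :: j :: u) (by simp only [List.length_cons]; omega), ite_self]

private theorem Coef_spl_add (i : I) (F F' : List I → List I → ℕ) (w : List I) :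
    spl i (fun a b => F a b + F' a b) w = spl i F w + spl i F' w := by
  induction w generalizing F F' with
  | nil => rfl
  | cons j w ih =>
    simp only [spl]
    rw [ih (fun a b => F (j :: a) b) (fun a b => F' (j :: a) b)]
    by_cases h : j = i
    · simp only [if_pos h]
      omega
    · simp only [if_neg h]
      omega

/-- formula (1) of PROOF.md (induction on `Q`, generalizing `u`) -/
theorem nc_split (Q u v : List I) (i : I) :
    nc Q (u ++ i :: v) = spl i (fun Q1 Q2 => nc Q1 u * nc Q2 v) Q := by
  induction Q generalizing u with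
  | nil =>
    rw [nc, if_neg (by simp), spl]
  | cons a Q ih =>
    cases u with
    | nil =>
      have h1 : nc Q (a :: i :: v) = spl i (fun Q1 Q2 => nc Q1 [a] * nc Q2 v) Q := ih [a]
      simp only [spl, List.nil_append, nc]
      rw [h1, if_pos trivial, one_mul]
    | cons b u =>
      have h1 : nc Q (a :: b :: (u ++ i :: v)) =
          spl i (fun Q1 Q2 => nc Q1 (a :: b :: u) * nc Q2 v) Q := ih (a :: b :: u)
      have h2 := ih u
      have hbu : ¬ (b :: u = []) := List.cons_ne_nil b u
      simp only [spl, List.cons_append, nc, if_neg hbu, zero_mul, ite_self, zero_add]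
      rw [h1]
      by_cases hab : a = b
      · simp only [if_pos hab]
        rw [h2, ← Coef_spl_add]
        simp only [add_mul]
      · simp only [if_neg hab, zero_add]

/-- integration by parts -/
theorem tau_cons (i : I) (Q : List I) :
    tau (i :: Q) = spl i (fun Q1 Q2 => tau Q1 * tau Q2) Q := by
  unfold tau
  rw [nc]
  exact nc_split Q [] [] i

theorem wd_append (P Q : List I) : wd (P ++ Q) = wd P * wd Q := by
  induction P with
  | nil =>
    simp only [wd, List.nil_append]
    rw [one_mul]
  | cons i P ih =>
    simp only [wd, List.cons_append]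
    rw [ih, mul_assoc]

theorem wd_adj (Q : List I) : ContinuousLinearMap.adjoint (wd Q) = wd Q.reverse := by
  induction Q with
  | nil =>
    simp only [wd, List.reverse_nil]
    rw [← ContinuousLinearMap.star_eq_adjoint, star_one]
  | cons i Q ih =>
    rw [List.reverse_cons, wd_append, ← ih]
    simp only [wd]
    rw [← ContinuousLinearMap.star_eq_adjoint, star_mul, ContinuousLinearMap.star_eq_adjoint,
      ContinuousLinearMap.star_eq_adjoint, y_adj, mul_one]

/-- `⟪P Ω, Q Ω⟫ = tau (P.reverse ++ Q)` -/
theorem inner_wd_wd (P Q : List I) :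
    ⟪wd P (ev []), wd Q (ev [])⟫_ℂ = (tau (P.reverse ++ Q) : ℂ) := by
  unfold tau
  rw [← inner_wd, wd_append, ← wd_adj]
  have h : (ContinuousLinearMap.adjoint (wd P) * wd Q) (ev []) =
      ContinuousLinearMap.adjoint (wd P) (wd Q (ev [])) := rfl
  rw [h, ContinuousLinearMap.adjoint_inner_right]

end P087.Fock
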