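import Vale.Agent.Lib.P087.Fock.Basic

/-! P087, Fock/VN: the von Neumann algebra of the left letters (= commutant of the right letters),
vacuum state tracial and separating. -/

open scoped InnerProductSpace ComplexConjugate

namespace P087.Fock

variable {I : Type} [DecidableEq I]

/-- `M` = commutant of the right letters -/
noncomputable def MM (I : Type) [DecidableEq I] : VonNeumannAlgebra (HH I) where
  carrier := Set.centralizer (Set.range (d : I → (HH I →L[ℂ] HH I)))
  mul_mem' := fun ha hb => Set.mul_mem_centralizer ha hb
  one_mem' := Set.one_mem_centralizer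
  add_mem' := fun ha hb => Set.add_mem_centralizer ha hb
  zero_mem' := Set.zero_mem_centralizer
  algebraMap_mem' := fun r => by
    intro s _
    exact (Algebra.commutes r s).symm
  star_mem' := fun ha => by
    refine Set.star_mem_centralizer' ?_ ha
    rintro _ ⟨i, rfl⟩
    refine ⟨i, ?_⟩
    rw [ContinuousLinearMap.star_eq_adjoint, d_adj]
  centralizer_centralizer' := Set.centralizer_centralizer_centralizer _

theorem mem_MM (a : HH I →L[ℂ] HH I) : a ∈ MM I ↔ ∀ i, d i * a = a * d i := by
  constructor
  · intro h i
    exact h (d i) ⟨i, rfl⟩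
  · rintro h _ ⟨i, rfl⟩
    exact h i

theorem y_mem (i : I) : y i ∈ MM I := by
  rw [mem_MM]
  intro j
  exact (y_comm_d i j).symm

theorem wd_mem (Q : List I) : wd Q ∈ MM I := by
  induction Q with
  | nil => exact one_mem _
  | cons i Q ih => exact mul_mem (y_mem i) ih

/-- contraction sums: `cs (w.reverse) (v.reverse)` is `D_w^* e_v`, where `D_w` is the right Wick
word with `D_w Ω = e_w` -/
noncomputable def cs : List I → List I → HH I
  | i :: a, j :: b => ev ((j :: b).reverse ++ i :: a) + if i = j then cs a b else 0
  | a, b => ev (b.reverse ++ a)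

private theorem cs_nil_left (b : List I) : cs [] b = ev b.reverse := by
  cases b <;> simp [cs]

private theorem cs_nil_right (a : List I) : cs a [] = ev a := by
  cases a <;> simp [cs]

private theorem d_rev_cons (j : I) (k : I) (W : List I) :
    d j (ev (k :: W).reverse) = ev (j :: k :: W).reverse + if j = k then ev W.reverse else 0 := by
  simpa using d_concat j k W.reverse

private theorem d_rev_nil (j : I) : d j (ev ([] : List I)) = ev [j].reverse := by
  simpa using d_nil j

private theorem comm_inner (a : HH I →L[ℂ] HH I) (ha : a ∈ MM I) (j : I) (ξ η : HH I) :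
    ⟪a (d j ξ), η⟫_ℂ = ⟪a ξ, d j η⟫_ℂ := by
  have h := (mem_MM a).1 ha j
  have h1 : a (d j ξ) = d j (a ξ) := by
    have := congrArg (fun T : HH I →L[ℂ] HH I => T ξ) h
    exact this.symm
  rw [h1]
  have h2 : ⟪d j (a ξ), η⟫_ℂ = ⟪a ξ, ContinuousLinearMap.adjoint (d j) η⟫_ℂ := by
    rw [ContinuousLinearMap.adjoint_inner_right]
  rw [h2, d_adj]

private theorem key_rev (a : HH I →L[ℂ] HH I) (ha : a ∈ MM I) (n : ℕ) :
    ∀ (W V : List I), W.length ≤ n →
      ⟪a (ev W.reverse), ev V.reverse⟫_ℂ = ⟪a (ev []), cs W V⟫_ℂ := by
  induction n with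
  | zero =>
    intro W V hW
    have : W = [] := List.eq_nil_of_length_eq_zero (by omega)
    subst this
    rw [cs_nil_left]
    rfl
  | succ n ih =>
    intro W V hW
    rcases W with _ | ⟨j, W⟩
    · rw [cs_nil_left]
      rfl
    · have hW' : W.length ≤ n := by simpa using hW
      rcases W with _ | ⟨i, W⟩
      · -- `W = [j]`
        rw [← d_rev_nil, comm_inner a ha]
        rcases V with _ | ⟨k, V⟩
        · rw [cs_nil_right]
          show ⟪a (ev []), d j (ev [])⟫_ℂ = _
          rw [d_nil]
        · rw [d_rev_cons, cs, cs_nil_left]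
          simp
      · have e1 : (ev (j :: i :: W).reverse : HH I) =
            d j (ev (i :: W).reverse) - if j = i then ev W.reverse else 0 := by
          rw [d_rev_cons]
          simp
        rw [e1, map_sub, inner_sub_left, comm_inner a ha]
        have hW'' : W.length ≤ n := by
          have : W.length + 1 ≤ n := by simpa using hW'
          omega
        rcases V with _ | ⟨k, V⟩
        · show ⟪a (ev (i :: W).reverse), d j (ev [])⟫_ℂ - _ = _
          rw [d_rev_nil, ih (i :: W) [j] hW', cs_nil_right, cs, cs_nil_right]
          by_cases hij : j = i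
          · subst hij
            have h3 := ih W [] hW''
            rw [cs_nil_right] at h3
            simp only [if_true, inner_add_right]
            rw [h3]
            simp
          · rw [if_neg hij, if_neg (fun h => hij h.symm)]
            simp
        · rw [d_rev_cons, inner_add_right, ih (i :: W) (j :: k :: V) hW', cs, inner_add_right]
          rw [show cs (j :: i :: W) (k :: V) = ev ((k :: V).reverse ++ j :: i :: W) +
            if j = k then cs (i :: W) V else 0 from rfl, inner_add_right]
          have h4 : (j :: k :: V).reverse ++ i :: W = (k :: V).reverse ++ j :: i :: W := by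
            simp
          rw [h4]
          by_cases hij : j = i
          · subst hij
            have h3 := ih W (k :: V) hW''
            rw [if_pos rfl, if_pos rfl, h3]
            by_cases hjk : j = k
            · subst hjk
              rw [if_pos rfl, if_pos rfl, ih (j :: W) V hW']
              ring
            · rw [if_neg hjk, if_neg hjk, inner_zero_right, inner_zero_right]
              ring
          · rw [if_neg hij, if_neg (fun h => hij h.symm)]
            by_cases hjk : j = k
            · subst hjk
              rw [if_pos rfl, if_pos rfl, ih (i :: W) V hW']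
              simp
            · rw [if_neg hjk, if_neg hjk]
              simp

/-- induction on the length of `w`: `e_(w ++ [j]) = d_j e_w - [w = w' ++ [j]] e_w'`, and
`⟪a (d_j ξ), η⟫ = ⟪a ξ, d_j η⟫` -/
theorem key (a : HH I →L[ℂ] HH I) (ha : a ∈ MM I) (w v : List I) :
    ⟪a (ev w), ev v⟫_ℂ = ⟪a (ev []), cs w.reverse v.reverse⟫_ℂ := by
  have h := key_rev a ha w.reverse.length w.reverse v.reverse le_rfl
  rwa [List.reverse_reverse, List.reverse_reverse] at h

/-- `(a^* Ω)_w = conj (a Ω)_(reverse w)` -/
theorem adj_coef (a : HH I →L[ℂ] HH I) (ha : a ∈ MM I) (w : List I) :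
    ⟪ev w, (ContinuousLinearMap.adjoint a) (ev [])⟫_ℂ = conj ⟪ev w.reverse, a (ev [])⟫_ℂ := by
  rw [ContinuousLinearMap.adjoint_inner_right, key a ha w [], List.reverse_nil, cs_nil_right,
    inner_conj_symm]

/-- the vacuum state is a trace on `M` -/
theorem tracial (a b : HH I →L[ℂ] HH I) (ha : a ∈ MM I) (hb : b ∈ MM I) :
    ⟪(ev [] : HH I), (a * b) (ev [])⟫_ℂ = ⟪(ev [] : HH I), (b * a) (ev [])⟫_ℂ := by
  have main : ∀ a b : HH I →L[ℂ] HH I, a ∈ MM I →
      ⟪(ev [] : HH I), (a * b) (ev [])⟫_ℂ =
        ∑' w : List I, (a (ev []) : HH I) w.reverse * (b (ev []) : HH I) w := by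
    intro a b ha
    have h1 : ⟪(ev [] : HH I), (a * b) (ev [])⟫_ℂ =
        ⟪ContinuousLinearMap.adjoint a (ev []), b (ev [])⟫_ℂ := by
      rw [ContinuousLinearMap.adjoint_inner_left]
      rfl
    rw [h1, lp.inner_eq_tsum]
    refine tsum_congr fun w => ?_
    have h2 := adj_coef a ha w
    rw [inner_ev, inner_ev] at h2
    rw [h2]
    simp [mul_comm]
  rw [main a b ha, main b a hb]
  rw [← (Equiv.tsum_eq (Function.Involutive.toPerm List.reverse List.reverse_involutive)
    fun w : List I => (a (ev []) : HH I) w.reverse * (b (ev []) : HH I) w)]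
  refine tsum_congr fun w => ?_
  show (a (ev []) : HH I) w.reverse.reverse * (b (ev []) : HH I) w.reverse = _
  rw [List.reverse_reverse, mul_comm]

theorem separating (a : HH I →L[ℂ] HH I) (ha : a ∈ MM I) (h : a (ev []) = 0) : a = 0 := by
  apply op_ext
  intro w
  apply ext_inner
  intro v
  have h1 := key a ha w v
  rw [h, inner_zero_left] at h1
  show ⟪ev v, a (ev w)⟫_ℂ = ⟪ev v, (0 : HH I)⟫_ℂ
  rw [inner_zero_right, ← inner_conj_symm, h1, map_zero]

end P087.Fock
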