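import Vale.Agent.Lib.P087.Fock.Coef
import Vale.Agent.Lib.P087.Fock.VN

/-! P087, Fock/Cyc: symmetries of the moments (from `tracial` and `adj_coef`). -/

open scoped InnerProductSpace ComplexConjugate

namespace P087.Fock

variable {I : Type} [DecidableEq I]

theorem tau_comm (P Q : List I) : tau (P ++ Q) = tau (Q ++ P) := by
  have h := tracial (wd P) (wd Q) (wd_mem P) (wd_mem Q)
  rw [← wd_append, ← wd_append, inner_wd, inner_wd] at h
  exact_mod_cast h

theorem nc_reverse (Q u : List I) : nc Q.reverse u.reverse = nc Q u := by
  have h := adj_coef (wd Q) (wd_mem Q) u.reverse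
  rw [wd_adj, inner_wd, inner_wd, List.reverse_reverse, Complex.conj_natCast] at h
  exact_mod_cast h

theorem tau_reverse (Q : List I) : tau Q.reverse = tau Q :=
  nc_reverse Q []

private theorem Cyc_spl_replicate {R : Type*} [AddCommMonoid R] (i : I) (n : ℕ) :
    ∀ F : List I → List I → R, spl i F (List.replicate n i) =
      ∑ l ∈ Finset.range n, F (List.replicate l i) (List.replicate (n - 1 - l) i) := by
  induction n with
  | zero => intro F; rfl
  | succ n ih =>
    intro F
    rw [List.replicate_succ]
    change (if i = i then F [] (List.replicate n i) else 0) +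
      spl i (fun a b => F (i :: a) b) (List.replicate n i) = _
    rw [if_pos rfl, ih, Finset.sum_range_succ', add_comm]
    refine congrArg₂ (· + ·) (Finset.sum_congr rfl fun l _ => ?_) ?_
    · rw [← List.replicate_succ]
      congr 2
      omega
    · simp

private theorem Cyc_sum_even (f : ℕ → ℕ) (hf : ∀ j, f (2 * j + 1) = 0) (k : ℕ) :
    ∑ l ∈ Finset.range (2 * k + 1), f l = ∑ j ∈ Finset.range (k + 1), f (2 * j) := by
  induction k with
  | zero => simp
  | succ k ih =>
    rw [show 2 * (k + 1) + 1 = 2 * k + 1 + 1 + 1 by ring, Finset.sum_range_succ,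
      Finset.sum_range_succ, ih, hf, Finset.sum_range_succ _ (k + 1)]
    rfl

private theorem Cyc_tau (i : I) (n : ℕ) : tau (List.replicate n i) =
    if n % 2 = 0 then catalan (n / 2) else 0 := by
  induction n using Nat.strong_induction_on with
  | _ n ih =>
    rcases n with _ | n
    · simp [tau, nc]
    · rw [List.replicate_succ, tau_cons, Cyc_spl_replicate]
      have h1 : ∀ l ∈ Finset.range n, tau (List.replicate l i) *
          tau (List.replicate (n - 1 - l) i) =
          (if l % 2 = 0 then catalan (l / 2) else 0) *
          (if (n - 1 - l) % 2 = 0 then catalan ((n - 1 - l) / 2) else 0) := by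
        intro l hl
        rw [Finset.mem_range] at hl
        rw [ih l (by omega), ih (n - 1 - l) (by omega)]
      rw [Finset.sum_congr rfl h1]
      rcases Nat.even_or_odd' n with ⟨k, rfl | rfl⟩
      · rw [if_neg (by omega)]
        refine Finset.sum_eq_zero fun l hl => ?_
        rw [Finset.mem_range] at hl
        by_cases h2 : l % 2 = 0
        · rw [if_neg (by omega : ¬ (2 * k - 1 - l) % 2 = 0), mul_zero]
        · rw [if_neg h2, zero_mul]
      · rw [if_pos (by omega), Cyc_sum_even _ (fun j => by
          rw [if_neg (by omega), zero_mul]), show (2 * k + 1 + 1) / 2 = k + 1 by omega,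
          catalan_succ, ← Finset.sum_range (fun j => catalan j * catalan (k - j))]
        refine Finset.sum_congr rfl fun j hj => ?_
        rw [Finset.mem_range] at hj
        rw [if_pos (by omega), if_pos (by omega)]
        congr 2 <;> omega

/-- Catalan moments of one letter -/
theorem tau_replicate_even (i : I) (n : ℕ) : tau (List.replicate (2 * n) i) = catalan n := by
  rw [Cyc_tau, if_pos (by omega)]
  congr 1
  omega

theorem tau_replicate_odd (i : I) (n : ℕ) : tau (List.replicate (2 * n + 1) i) = 0 := by
  rw [Cyc_tau, if_neg (by omega)]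

private theorem Cyc_pow (i : I) (n : ℕ) : y i ^ n = wd (List.replicate n i) := by
  induction n with
  | zero => rfl
  | succ n ih =>
    rw [pow_succ', ih, List.replicate_succ]
    rfl

theorem semi_even (i : I) (n : ℕ) :
    ⟪(ev [] : HH I), (y i ^ (2 * n)) (ev [])⟫_ℂ = (catalan n : ℂ) := by
  rw [Cyc_pow, inner_wd, ← tau_replicate_even i n]
  rfl

theorem semi_odd (i : I) (n : ℕ) :
    ⟪(ev [] : HH I), (y i ^ (2 * n + 1)) (ev [])⟫_ℂ = 0 := by
  rw [Cyc_pow, inner_wd]
  have h := tau_replicate_odd i n
  unfold tau at h
  rw [h, Nat.cast_zero]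

end P087.Fock
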