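import Vale.Agent.Lib.P087.Fock.Basic

/-! P087, Fock/Free: the algebras generated by the letters of one colour are free. -/

open scoped InnerProductSpace ComplexConjugate

namespace P087.Fock

variable {I : Type} [DecidableEq I]

/-- span of the words with letters in `T` -/
noncomputable def Kc (T : Set I) : Submodule ℂ (HH I) :=
  Submodule.span ℂ {f | ∃ w : List I, (∀ x ∈ w, x ∈ T) ∧ f = ev w}

/-- algebra generated by the letters in `T` -/
noncomputable def algT (T : Set I) : Subalgebra ℂ (HH I →L[ℂ] HH I) :=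
  Algebra.adjoin ℂ (y '' T)

/-- right concatenation `e_w ↦ e_(w ++ v)` -/
noncomputable def Rv (v : List I) : HH I →L[ℂ] HH I :=
  opφ (fun w => w ++ v) (fun _ _ h => List.append_left_injective v h)

private theorem free_Rv_ev (v w : List I) : Rv v (ev w) = ev (w ++ v) :=
  opφ_ev (fun w => w ++ v) (fun _ _ h => List.append_left_injective v h) w

private theorem free_ev_mem (T : Set I) {w : List I} (h : ∀ x ∈ w, x ∈ T) : ev w ∈ Kc T :=
  Submodule.subset_span ⟨w, h, rfl⟩

private theorem free_y_mem (T : Set I) {i : I} (hi : i ∈ T) {w : List I} (h : ∀ x ∈ w, x ∈ T) :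
    y i (ev w) ∈ Kc T := by
  rcases w with _ | ⟨j, w⟩
  · rw [y_nil]
    exact free_ev_mem T (by simpa using hi)
  · rw [y_cons]
    refine add_mem (free_ev_mem T ?_) ?_
    · intro x hx
      rcases List.mem_cons.1 hx with rfl | hx
      · exact hi
      · exact h x hx
    · split_ifs
      · exact free_ev_mem T fun x hx => h x (List.mem_cons_of_mem j hx)
      · exact zero_mem _

private theorem free_y_Rv (T : Set I) {i : I} (hi : i ∈ T) (v : List I)
    (hv : ∀ x ∈ v.head?, x ∉ T) (w : List I) : y i (Rv v (ev w)) = Rv v (y i (ev w)) := by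
  rcases w with _ | ⟨j, w⟩
  · rw [y_nil, free_Rv_ev, free_Rv_ev, List.nil_append]
    rcases v with _ | ⟨k, v⟩
    · rw [y_nil]
      rfl
    · have hk : k ∉ T := hv k (by simp)
      rw [y_cons, if_neg (fun h : i = k => hk (h ▸ hi)), add_zero]
      rfl
  · rw [y_cons, map_add, free_Rv_ev, free_Rv_ev, List.cons_append, y_cons]
    congr 1
    split_ifs
    · rw [free_Rv_ev]
    · rw [map_zero]

/-- an element of `algT T` preserves `Kc T` and acts on `ξ ⊗ e_v` as `(a ξ) ⊗ e_v` if `v` does not
begin with a letter of `T` (`Algebra.adjoin_induction`, `Submodule.span_induction`) -/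
theorem alg_acts (T : Set I) (a : HH I →L[ℂ] HH I) (ha : a ∈ algT T) :
    (∀ ξ ∈ Kc T, a ξ ∈ Kc T) ∧
      ∀ v : List I, (∀ x ∈ v.head?, x ∉ T) → ∀ ξ ∈ Kc T, a (Rv v ξ) = Rv v (a ξ) := by
  unfold algT at ha
  induction ha using Algebra.adjoin_induction with
  | mem a ha =>
    obtain ⟨i, hi, rfl⟩ := ha
    refine ⟨fun ξ hξ => ?_, fun v hv ξ hξ => ?_⟩
    · induction hξ using Submodule.span_induction with
      | mem x hx =>
        obtain ⟨w, hw, rfl⟩ := hx
        exact free_y_mem T hi hw
      | zero => rw [map_zero]; exact zero_mem _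
      | add x z _ _ hx hz => rw [map_add]; exact add_mem hx hz
      | smul c x _ hx => rw [map_smul]; exact Submodule.smul_mem _ _ hx
    · induction hξ using Submodule.span_induction with
      | mem x hx =>
        obtain ⟨w, hw, rfl⟩ := hx
        exact free_y_Rv T hi v hv w
      | zero => simp only [map_zero]
      | add x z _ _ hx hz => simp only [map_add, hx, hz]
      | smul c x _ hx => simp only [map_smul, hx]
  | algebraMap c =>
    refine ⟨fun ξ hξ => ?_, fun v hv ξ hξ => ?_⟩
    · rw [Algebra.algebraMap_eq_smul_one, smul_apply,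
        one_apply_eq_self]
      exact Submodule.smul_mem _ _ hξ
    · simp only [Algebra.algebraMap_eq_smul_one, smul_apply,
        one_apply_eq_self, map_smul]
  | add a b _ _ h1 h2 =>
    refine ⟨fun ξ hξ => ?_, fun v hv ξ hξ => ?_⟩
    · rw [add_apply]
      exact add_mem (h1.1 ξ hξ) (h2.1 ξ hξ)
    · rw [add_apply, add_apply, map_add,
        h1.2 v hv ξ hξ, h2.2 v hv ξ hξ]
  | mul a b _ _ h1 h2 =>
    refine ⟨fun ξ hξ => h1.1 _ (h2.1 ξ hξ), fun v hv ξ hξ => ?_⟩
    show a (b (Rv v ξ)) = Rv v (a (b ξ))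
    rw [h2.2 v hv ξ hξ, h1.2 v hv _ (h2.1 ξ hξ)]

/-- span of the words beginning with a letter of `T` -/
private noncomputable def freeV (T : Set I) : Submodule ℂ (HH I) :=
  Submodule.span ℂ {f | ∃ i ∈ T, ∃ w : List I, f = ev (i :: w)}

private theorem freeV_inner (T : Set I) {ξ : HH I} (h : ξ ∈ freeV T) :
    ⟪(ev [] : HH I), ξ⟫_ℂ = 0 := by
  induction h using Submodule.span_induction with
  | mem x hx =>
    obtain ⟨i, _, w, rfl⟩ := hx
    rw [inner_ev_ev, if_neg (by simp)]
  | zero => rw [inner_zero_right]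
  | add x z _ _ hx hz => rw [inner_add_right, hx, hz, add_zero]
  | smul c x _ hx => rw [inner_smul_right, hx, mul_zero]

private theorem freeV_center (T : Set I) {ξ : HH I} (h : ξ ∈ Kc T) :
    ξ - ⟪(ev [] : HH I), ξ⟫_ℂ • ev [] ∈ freeV T := by
  induction h using Submodule.span_induction with
  | mem x hx =>
    obtain ⟨w, hw, rfl⟩ := hx
    rcases w with _ | ⟨i, w⟩
    · rw [inner_ev_ev, if_pos rfl, one_smul, sub_self]
      exact zero_mem _
    · rw [inner_ev_ev, if_neg (by simp), zero_smul, sub_zero]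
      exact Submodule.subset_span ⟨i, hw i (by simp), w, rfl⟩
  | zero =>
    rw [inner_zero_right, zero_smul, sub_zero]
    exact zero_mem _
  | add x z _ _ hx hz =>
    have h1 : x + z - ⟪(ev [] : HH I), x + z⟫_ℂ • (ev [] : HH I) =
        (x - ⟪(ev [] : HH I), x⟫_ℂ • ev []) + (z - ⟪(ev [] : HH I), z⟫_ℂ • ev []) := by
      rw [inner_add_right, add_smul]
      abel
    rw [h1]
    exact add_mem hx hz
  | smul c x _ hx =>
    have h1 : c • x - ⟪(ev [] : HH I), c • x⟫_ℂ • (ev [] : HH I) =
        c • (x - ⟪(ev [] : HH I), x⟫_ℂ • ev []) := by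
      rw [inner_smul_right, smul_sub, mul_smul]
    rw [h1]
    exact Submodule.smul_mem _ _ hx

private theorem freeV_Rv (T : Set I) (v : List I) {ξ : HH I} (h : ξ ∈ freeV T) :
    Rv v ξ ∈ freeV T := by
  induction h using Submodule.span_induction with
  | mem x hx =>
    obtain ⟨i, hi, w, rfl⟩ := hx
    rw [free_Rv_ev, List.cons_append]
    exact Submodule.subset_span ⟨i, hi, w ++ v, rfl⟩
  | zero => rw [map_zero]; exact zero_mem _
  | add x z _ _ hx hz => rw [map_add]; exact add_mem hx hz
  | smul c x _ hx => rw [map_smul]; exact Submodule.smul_mem _ _ hx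

private theorem freeV_start (T : Set I) {a : HH I →L[ℂ] HH I} (ha : a ∈ algT T)
    (h0 : ⟪(ev [] : HH I), a (ev [])⟫_ℂ = 0) : a (ev []) ∈ freeV T := by
  have h1 := freeV_center T ((alg_acts T a ha).1 (ev []) (free_ev_mem T (by simp)))
  rwa [h0, zero_smul, sub_zero] at h1

private theorem freeV_step (T T' : Set I) (hd : ∀ x ∈ T', x ∉ T) {a : HH I →L[ℂ] HH I}
    (ha : a ∈ algT T) (h0 : ⟪(ev [] : HH I), a (ev [])⟫_ℂ = 0) {ξ : HH I}
    (h : ξ ∈ freeV T') : a ξ ∈ freeV T := by
  induction h using Submodule.span_induction with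
  | mem x hx =>
    obtain ⟨i, hi, w, rfl⟩ := hx
    have h1 : (ev (i :: w) : HH I) = Rv (i :: w) (ev []) := by
      rw [free_Rv_ev, List.nil_append]
    rw [h1, (alg_acts T a ha).2 (i :: w) (by simpa using hd i hi) (ev [])
      (free_ev_mem T (by simp))]
    exact freeV_Rv T _ (freeV_start T ha h0)
  | zero => rw [map_zero]; exact zero_mem _
  | add x z _ _ hx hz => rw [map_add]; exact add_mem hx hz
  | smul c x _ hx => rw [map_smul]; exact Submodule.smul_mem _ _ hx

private theorem freeV_alt {J : Type*} (κ : I → J) (l : List (J × (HH I →L[ℂ] HH I)))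
    (p : J × (HH I →L[ℂ] HH I))
    (hmem : ∀ q ∈ p :: l, q.2 ∈ algT {i | κ i = q.1})
    (hτ : ∀ q ∈ p :: l, ⟪(ev [] : HH I), q.2 (ev [])⟫_ℂ = 0)
    (halt : (p :: l).IsChain (fun p q => p.1 ≠ q.1)) :
    ((p :: l).map Prod.snd).prod (ev []) ∈ freeV {i | κ i = p.1} := by
  induction l generalizing p with
  | nil =>
    simp only [List.map_cons, List.map_nil, List.prod_cons, List.prod_nil, mul_one]
    exact freeV_start _ (hmem p (by simp)) (hτ p (by simp))
  | cons q l ih =>
    rw [List.isChain_cons_cons] at halt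
    have h1 := ih q (fun q' hq' => hmem q' (List.mem_cons_of_mem p hq'))
      (fun q' hq' => hτ q' (List.mem_cons_of_mem p hq')) halt.2
    rw [List.map_cons, List.prod_cons]
    show p.2 (((q :: l).map Prod.snd).prod (ev [])) ∈ _
    refine freeV_step _ {i | κ i = q.1} ?_ (hmem p (by simp)) (hτ p (by simp)) h1
    intro x hx hx'
    have h2 : κ x = q.1 := hx
    have h3 : κ x = p.1 := hx'
    exact halt.1 (h3.symm.trans h2)

/-- alternating products of centred elements have trace zero. Suggested: by induction on `l` from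
the right, `l.prod Ω ∈ span {e_w : w ≠ [], head of w of the colour of the first factor}`. -/
theorem free_alt {J : Type*} (κ : I → J) (l : List (J × (HH I →L[ℂ] HH I)))
    (hmem : ∀ p ∈ l, p.2 ∈ algT {i | κ i = p.1})
    (hτ : ∀ p ∈ l, ⟪(ev [] : HH I), p.2 (ev [])⟫_ℂ = 0)
    (halt : l.IsChain (fun p q => p.1 ≠ q.1)) (hne : l ≠ []) :
    ⟪(ev [] : HH I), (l.map Prod.snd).prod (ev [])⟫_ℂ = 0 := by
  rcases l with _ | ⟨p, l⟩
  · exact absurd rfl hne
  · exact freeV_inner _ (freeV_alt κ l p hmem hτ halt)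

end P087.Fock
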